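import Vale.Agent.P106.W840.Weights

/-! # P106 / AN : sums of the weights of parallel planks (helper840)

`stWS` for the radially truncated cone in `ℝ^(3+1)` : port of `P122/W840/Sum`. -/

open MeasureTheory Complex Set
open Vale.Agent.P122.C2 (Z2 fw fn)
open scoped ENNReal NNReal FourierTransform

set_option linter.all false

namespace Vale.Agent.P106.W840

open Vale.Agent.P106.AN

/-- uniform summability of `(1+|x-k|)^(-4/3)` over the integers -/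
lemma exists_sum_int : ∃ C : ℝ, 0 ≤ C ∧ ∀ (x : ℝ) (U : Finset ℤ), ∑ k ∈ U, ((1 + |x - k|) ^ (4 / 3 : ℝ))⁻¹ ≤ C := by
  have hs : Summable fun n : ℤ => |(n : ℝ)| ^ (-(4 / 3 : ℝ)) := Real.summable_abs_int_rpow (by norm_num)
  have hs' : Summable fun n : ℤ => ((max 1 |(n : ℝ)|) ^ (4 / 3 : ℝ))⁻¹ := by
    refine Summable.of_norm_bounded_eventually (g := fun n : ℤ => |(n : ℝ)| ^ (-(4 / 3 : ℝ))) hs ?_
    have : ({0} : Set ℤ)ᶜ ∈ Filter.cofinite := (Set.finite_singleton (0 : ℤ)).compl_mem_cofinite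
    filter_upwards [this] with n hn
    have hn' : n ≠ 0 := hn
    have h1 : (1 : ℝ) ≤ |(n : ℝ)| := by
      have : (1 : ℤ) ≤ |n| := Int.one_le_abs hn'
      exact_mod_cast this
    rw [max_eq_right h1, Real.norm_of_nonneg (by positivity), Real.rpow_neg (abs_nonneg _)]
  refine ⟨∑' n : ℤ, ((max 1 |(n : ℝ)|) ^ (4 / 3 : ℝ))⁻¹, tsum_nonneg fun n => by positivity, ?_⟩
  intro x U
  calc ∑ k ∈ U, ((1 + |x - k|) ^ (4 / 3 : ℝ))⁻¹ ≤ ∑ k ∈ U, ((max 1 |((k - ⌊x⌋ : ℤ) : ℝ)|) ^ (4 / 3 : ℝ))⁻¹ := by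
        apply Finset.sum_le_sum
        intro k _
        gcongr
        apply max_le
        · have := abs_nonneg (x - k); linarith
        · have h1 : |x - ⌊x⌋| ≤ 1 := by
            rw [abs_le]; constructor
            · have := Int.floor_le x; linarith
            · have := Int.lt_floor_add_one x; linarith
          push_cast
          calc |(k : ℝ) - ⌊x⌋| = |(x - ⌊x⌋) - (x - k)| := by congr 1; ring
            _ ≤ |x - ⌊x⌋| + |x - k| := abs_sub _ _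
            _ ≤ 1 + |x - k| := by linarith
    _ = ∑ k ∈ U.map (Equiv.subRight ⌊x⌋).toEmbedding, ((max 1 |(k : ℝ)|) ^ (4 / 3 : ℝ))⁻¹ := by
        rw [Finset.sum_map]; rfl
    _ ≤ _ := hs'.sum_le_tsum _ (fun k _ => by positivity)

/-- uniform summability of `(1+|x-o₀|+|y-o₁|+|ζ-w|)^(-4)` over the lattice -/
lemma exists_sum_Z3 : ∃ C : ℝ, 0 ≤ C ∧ ∀ (x y ζ : ℝ) (U : Finset (Z2 × ℤ)),
    ∑ q ∈ U, ((1 + |x - q.1 0| + |y - q.1 1| + |ζ - q.2|) ^ 4)⁻¹ ≤ C := by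
  obtain ⟨C, hC, h⟩ := exists_sum_int
  refine ⟨C * (C * C), by positivity, ?_⟩
  intro x y ζ U
  classical
  let f : ℤ × ℤ × ℤ → ℝ := fun p => ((1 + |x - p.1|) ^ (4 / 3 : ℝ))⁻¹ *
    (((1 + |y - p.2.1|) ^ (4 / 3 : ℝ))⁻¹ * ((1 + |ζ - p.2.2|) ^ (4 / 3 : ℝ))⁻¹)
  have key : ∀ q : Z2 × ℤ, ((1 + |x - q.1 0| + |y - q.1 1| + |ζ - q.2|) ^ 4)⁻¹ ≤ f (q.1 0, q.1 1, q.2) := by
    intro q
    simp only [f]
    rw [← mul_inv, ← mul_inv]
    have na := abs_nonneg (x - q.1 0)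
    have nb := abs_nonneg (y - q.1 1)
    have nc := abs_nonneg (ζ - q.2)
    set T := 1 + |x - q.1 0| + |y - q.1 1| + |ζ - q.2| with hT
    have hT0 : 0 < T := by rw [hT]; linarith
    apply inv_anti₀ (by positivity)
    have e : T ^ 4 = T ^ (4 / 3 : ℝ) * (T ^ (4 / 3 : ℝ) * T ^ (4 / 3 : ℝ)) := by
      rw [← Real.rpow_add hT0, ← Real.rpow_add hT0, ← Real.rpow_natCast]; norm_num
    rw [e]
    have r1 : (1 + |x - q.1 0|) ^ (4 / 3 : ℝ) ≤ T ^ (4 / 3 : ℝ) :=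
      Real.rpow_le_rpow (by positivity) (by rw [hT]; linarith) (by norm_num)
    have r2 : (1 + |y - q.1 1|) ^ (4 / 3 : ℝ) ≤ T ^ (4 / 3 : ℝ) :=
      Real.rpow_le_rpow (by positivity) (by rw [hT]; linarith) (by norm_num)
    have r3 : (1 + |ζ - q.2|) ^ (4 / 3 : ℝ) ≤ T ^ (4 / 3 : ℝ) :=
      Real.rpow_le_rpow (by positivity) (by rw [hT]; linarith) (by norm_num)
    gcongr
  calc ∑ q ∈ U, ((1 + |x - q.1 0| + |y - q.1 1| + |ζ - q.2|) ^ 4)⁻¹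
      ≤ ∑ q ∈ U, f (q.1 0, q.1 1, q.2) := Finset.sum_le_sum fun q _ => key q
    _ = ∑ p ∈ U.image (fun q => (q.1 0, q.1 1, q.2)), f p := by
        rw [Finset.sum_image]
        intro a _ b _ hab
        have h1 : a.1 0 = b.1 0 := (Prod.ext_iff.1 hab).1
        have h2 : a.1 1 = b.1 1 := (Prod.ext_iff.1 (Prod.ext_iff.1 hab).2).1
        have h3 : a.2 = b.2 := (Prod.ext_iff.1 (Prod.ext_iff.1 hab).2).2
        refine Prod.ext ?_ h3
        funext i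
        fin_cases i
        · exact h1
        · exact h2
    _ ≤ ∑ p ∈ (U.image (fun q => q.1 0)) ×ˢ ((U.image (fun q => q.1 1)) ×ˢ (U.image (fun q => q.2))), f p := by
        apply Finset.sum_le_sum_of_subset_of_nonneg
        · intro p hp
          rw [Finset.mem_image] at hp
          obtain ⟨q, hq, rfl⟩ := hp
          rw [Finset.mem_product, Finset.mem_product]
          exact ⟨Finset.mem_image_of_mem _ hq, Finset.mem_image_of_mem _ hq, Finset.mem_image_of_mem _ hq⟩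
        · intro p _ _
          simp only [f]; positivity
    _ = (∑ k ∈ U.image (fun q => q.1 0), ((1 + |x - k|) ^ (4 / 3 : ℝ))⁻¹) *
          ((∑ k ∈ U.image (fun q => q.1 1), ((1 + |y - k|) ^ (4 / 3 : ℝ))⁻¹) *
            ∑ k ∈ U.image (fun q => q.2), ((1 + |ζ - k|) ^ (4 / 3 : ℝ))⁻¹) := by
        simp only [f]
        rw [Finset.sum_product, Finset.sum_mul]
        refine Finset.sum_congr rfl fun a _ => ?_
        rw [Finset.sum_product, Finset.sum_mul_sum, Finset.mul_sum]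
        refine Finset.sum_congr rfl fun b _ => ?_
        rw [Finset.mul_sum]
    _ ≤ C * (C * C) := by
        refine mul_le_mul (h _ _) (mul_le_mul (h _ _) (h _ _) (Finset.sum_nonneg fun k _ => by positivity) hC)
          (mul_nonneg (Finset.sum_nonneg fun k _ => by positivity) (Finset.sum_nonneg fun k _ => by positivity)) hC

/-- sum of the weights of parallel planks: the time part of the gauge is not needed -/
lemma exists_sum_gau : ∃ C : ℝ, 0 ≤ C ∧ ∀ (ρ0 ρ ρ3 : ℝ) (s : Fin 2 → ℝ) (U : Finset (Z2 × ℤ)) (t : ℝ) (z : E4),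
    0 < ρ0 → 0 < ρ → 0 < ρ3 →
    ∑ q ∈ U, ((1 + gau 0 ρ0 ρ ρ ρ3 s (z - pt ρ0 ρ t s q.1 q.2)) ^ 4)⁻¹ ≤ C := by
  obtain ⟨C, hC, h⟩ := exists_sum_Z3
  refine ⟨C, hC, ?_⟩
  intro ρ0 ρ ρ3 s U t z hρ0 hρ hρ3
  refine le_trans (Finset.sum_le_sum fun q _ => ?_)
    (h ((z 0 - s 0 * (z 2 - t)) / ρ) ((z 1 - s 1 * (z 2 - t)) / ρ)
      ((z 3 - (s 0 * z 0 + s 1 * z 1) + (s 0 ^ 2 + s 1 ^ 2) / 2 * z 2) / ρ0) U)
  apply inv_anti₀ (by positivity)
  refine pow_le_pow_left₀ (by positivity) ?_ 4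
  have e : gau 0 ρ0 ρ ρ ρ3 s (z - pt ρ0 ρ t s q.1 q.2) =
      |(z 3 - (s 0 * z 0 + s 1 * z 1) + (s 0 ^ 2 + s 1 ^ 2) / 2 * z 2) / ρ0 - q.2| +
      |(z 0 - s 0 * (z 2 - t)) / ρ - q.1 0| + |(z 1 - s 1 * (z 2 - t)) / ρ - q.1 1| + |z 2 - t| / ρ3 := by
    have a0 : (z 0 - s 0 * (z 2 - t)) / ρ - q.1 0 = (z 0 - ρ * q.1 0 - s 0 * (z 2 - t)) / ρ := by field_simp; ring
    have a1 : (z 1 - s 1 * (z 2 - t)) / ρ - q.1 1 = (z 1 - ρ * q.1 1 - s 1 * (z 2 - t)) / ρ := by field_simp; ring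
    have a3 : (z 3 - (s 0 * z 0 + s 1 * z 1) + (s 0 ^ 2 + s 1 ^ 2) / 2 * z 2) / ρ0 - q.2 =
        nl s (z - pt ρ0 ρ t s q.1 q.2) / ρ0 := by
      simp only [nl, pt, PiLp.sub_apply]
      simp
      field_simp
      ring
    rw [a3, a0, a1, abs_div, abs_div, abs_div, abs_of_pos hρ, abs_of_pos hρ0]
    simp [gau, fw, fn, dv, pt]
  rw [e]
  have : 0 ≤ |z 2 - t| / ρ3 := by positivity
  linarith

/-- [WS] -/
theorem stWS : StWS := by
  intro M c hc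
  obtain ⟨C0, hC0, h0⟩ := exists_sum_gau
  set B : ℝ := 4 * c + 5 with hB
  refine ⟨B ^ M * C0, by positivity, ?_⟩
  intro θ ρ0 ρ ρ3 R0 R1 R2 s s' U t p hρ0 hρ hρ3 hR0 hR1 hR2 hw hn hs0 hs1 hq hU z
  have hR0' : 0 < R0 := by linarith
  have hR1' : 0 < R1 := by linarith
  have hR2' : 0 < R2 := by linarith
  have hBpos : 0 < B := by rw [hB]; linarith
  have key : ∀ q ∈ U, 1 + gau θ R0 R1 R2 ρ3 s (z - p) ≤ B * (1 + gau 0 ρ0 ρ ρ ρ3 s' (z - pt ρ0 ρ t s' q.1 q.2)) := by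
    intro o ho
    set q : E4 := pt ρ0 ρ t s' o.1 o.2 with hq'
    have e : z - p = (z - q) + (q - p) := by abel
    have h1 := gau_add_le (θ := θ) hR0' hR1' hR2' hρ3 s (z - q) (q - p)
    rw [← e] at h1
    have h2 := hU o ho
    have h3 := gau_le hc (θ := θ) (θ' := 0) (R0 := R0) (R1 := R1) (R2 := R2) (R3 := ρ3) (s := s) (s' := s') hρ0 hρ hρ hρ3
      (Or.inr ⟨⟨hR1, hR2⟩, hR1, hR2⟩) le_rfl hR0 hw hn (by simpa [fw] using hs0) (by simpa [fn] using hs1) hq (z - q)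
    have h4 := gau_nonneg (θ := 0) hρ0 hρ hρ hρ3 s' (z - q)
    rw [hB]
    nlinarith
  have term : ∀ q ∈ U, wg (M + 4) 0 ρ0 ρ ρ ρ3 s' (z - pt ρ0 ρ t s' q.1 q.2) ≤
      ENNReal.ofReal (B ^ M * ((1 + gau 0 ρ0 ρ ρ ρ3 s' (z - pt ρ0 ρ t s' q.1 q.2)) ^ 4)⁻¹ *
        ((1 + gau θ R0 R1 R2 ρ3 s (z - p)) ^ M)⁻¹) := by
    intro o ho
    unfold wg
    apply ENNReal.ofReal_le_ofReal
    have k := key o ho
    have g1 := gau_nonneg (θ := 0) hρ0 hρ hρ hρ3 s' (z - pt ρ0 ρ t s' o.1 o.2)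
    have g2 := gau_nonneg (θ := θ) hR0' hR1' hR2' hρ3 s (z - p)
    set a := 1 + gau 0 ρ0 ρ ρ ρ3 s' (z - pt ρ0 ρ t s' o.1 o.2) with ha
    set b := 1 + gau θ R0 R1 R2 ρ3 s (z - p) with hb
    have ha0 : 0 < a := by linarith
    have hb0 : 0 < b := by linarith
    have hM : b ^ M ≤ B ^ M * a ^ M := by
      rw [← mul_pow]; exact pow_le_pow_left₀ hb0.le k M
    calc (a ^ (M + 4))⁻¹ = (a ^ 4)⁻¹ * (a ^ M)⁻¹ := by rw [pow_add, mul_inv, mul_comm]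
      _ ≤ (a ^ 4)⁻¹ * (B ^ M * (b ^ M)⁻¹) := by
          gcongr
          rw [inv_le_iff_one_le_mul₀ (by positivity)]
          calc (1 : ℝ) = b ^ M * (b ^ M)⁻¹ := by rw [mul_inv_cancel₀ (by positivity)]
            _ ≤ (B ^ M * a ^ M) * (b ^ M)⁻¹ := by gcongr
            _ = _ := by ring
      _ = _ := by ring
  calc ∑ q ∈ U, wg (M + 4) 0 ρ0 ρ ρ ρ3 s' (z - pt ρ0 ρ t s' q.1 q.2)
      ≤ ∑ q ∈ U, ENNReal.ofReal (B ^ M * ((1 + gau 0 ρ0 ρ ρ ρ3 s' (z - pt ρ0 ρ t s' q.1 q.2)) ^ 4)⁻¹ *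
        ((1 + gau θ R0 R1 R2 ρ3 s (z - p)) ^ M)⁻¹) := Finset.sum_le_sum term
    _ = ENNReal.ofReal (∑ q ∈ U, B ^ M * ((1 + gau 0 ρ0 ρ ρ ρ3 s' (z - pt ρ0 ρ t s' q.1 q.2)) ^ 4)⁻¹ *
        ((1 + gau θ R0 R1 R2 ρ3 s (z - p)) ^ M)⁻¹) := by
        rw [ENNReal.ofReal_sum_of_nonneg]
        intro o _
        have g1 := gau_nonneg (θ := 0) hρ0 hρ hρ hρ3 s' (z - pt ρ0 ρ t s' o.1 o.2)
        have g2 := gau_nonneg (θ := θ) hR0' hR1' hR2' hρ3 s (z - p)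
        positivity
    _ ≤ ENNReal.ofReal ((B ^ M * C0) * ((1 + gau θ R0 R1 R2 ρ3 s (z - p)) ^ M)⁻¹) := by
        apply ENNReal.ofReal_le_ofReal
        rw [← Finset.sum_mul, ← Finset.mul_sum]
        have g2 := gau_nonneg (θ := θ) hR0' hR1' hR2' hρ3 s (z - p)
        have := h0 ρ0 ρ ρ3 s' U t z hρ0 hρ hρ3
        gcongr
    _ = _ := by
        rw [ENNReal.ofReal_mul (by positivity)]; rfl

end Vale.Agent.P106.W840
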