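import Vale.Agent.P106.AN.Base
import Vale.Agent.P122.W840.Sum

/-! # P106 / AN : weights of the planks (helper840)

`stWG`, `stWS` for the radially truncated cone in `ℝ^(3+1)` : port of `P122/W840`. -/

open MeasureTheory Complex Set
open Vale.Agent.P122.C2 (Z2 fw fn)
open Vale.Agent.P122.W840 (fw_abs_le fn_abs_le abs0_le abs1_le fw_le_frame fn_le_frame)
open scoped ENNReal NNReal FourierTransform

set_option linter.all false

namespace Vale.Agent.P106.W840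

open Vale.Agent.P106.AN

lemma fw_dv (θ : ℝ) (s s' : Fin 2 → ℝ) (z : E4) :
    fw θ (dv s z) = fw θ (dv s' z) - fw θ (fun i => s i - s' i) * z 2 := by
  simp [fw, dv]; ring

lemma fn_dv (θ : ℝ) (s s' : Fin 2 → ℝ) (z : E4) :
    fn θ (dv s z) = fn θ (dv s' z) - fn θ (fun i => s i - s' i) * z 2 := by
  simp [fn, dv]; ring

lemma fw_dv_add (θ : ℝ) (s : Fin 2 → ℝ) (z w : E4) : fw θ (dv s (z + w)) = fw θ (dv s z) + fw θ (dv s w) := by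
  simp [fw, dv]; ring

lemma fn_dv_add (θ : ℝ) (s : Fin 2 → ℝ) (z w : E4) : fn θ (dv s (z + w)) = fn θ (dv s z) + fn θ (dv s w) := by
  simp [fn, dv]; ring

lemma nl_add (s : Fin 2 → ℝ) (z w : E4) : nl s (z + w) = nl s z + nl s w := by
  simp [nl]; ring

/-- change of slope of the null coordinate, in the frame `θ` -/
lemma nl_sub (θ : ℝ) (s s' : Fin 2 → ℝ) (z : E4) :
    nl s z = nl s' z - (fw θ (fun i => s i - s' i) * fw θ (dv s' z) + fn θ (fun i => s i - s' i) * fn θ (dv s' z)) +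
      ((s 0 - s' 0) ^ 2 + (s 1 - s' 1) ^ 2) / 2 * z 2 := by
  have h := Real.sin_sq_add_cos_sq θ
  simp only [nl, fw, fn, dv, Matrix.cons_val_zero, Matrix.cons_val_one]
  linear_combination ((s 0 - s' 0) * (z 0 - s' 0 * z 2) + (s 1 - s' 1) * (z 1 - s' 1 * z 2)) * h

lemma gau_nonneg {θ ρ0 ρ1 ρ2 ρ3 : ℝ} (h0 : 0 < ρ0) (h1 : 0 < ρ1) (h2 : 0 < ρ2) (h3 : 0 < ρ3) (s : Fin 2 → ℝ) (z : E4) :
    0 ≤ gau θ ρ0 ρ1 ρ2 ρ3 s z := by
  unfold gau; positivity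

/-- triangle inequality -/
lemma gau_add_le {θ ρ0 ρ1 ρ2 ρ3 : ℝ} (h0 : 0 < ρ0) (h1 : 0 < ρ1) (h2 : 0 < ρ2) (h3 : 0 < ρ3) (s : Fin 2 → ℝ) (z w : E4) :
    gau θ ρ0 ρ1 ρ2 ρ3 s (z + w) ≤ gau θ ρ0 ρ1 ρ2 ρ3 s z + gau θ ρ0 ρ1 ρ2 ρ3 s w := by
  unfold gau
  have e0 : |nl s (z + w)| / ρ0 ≤ |nl s z| / ρ0 + |nl s w| / ρ0 := by
    rw [← add_div, nl_add]; gcongr; exact abs_add_le _ _
  have e1 : |fw θ (dv s (z + w))| / ρ1 ≤ |fw θ (dv s z)| / ρ1 + |fw θ (dv s w)| / ρ1 := by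
    rw [← add_div, fw_dv_add]; gcongr; exact abs_add_le _ _
  have e2 : |fn θ (dv s (z + w))| / ρ2 ≤ |fn θ (dv s z)| / ρ2 + |fn θ (dv s w)| / ρ2 := by
    rw [← add_div, fn_dv_add]; gcongr; exact abs_add_le _ _
  have e3 : |(z + w) 2| / ρ3 ≤ |z 2| / ρ3 + |w 2| / ρ3 := by
    rw [← add_div]; gcongr; simpa using abs_add_le (z 2) (w 2)
  linarith

/-- [WG] -/
lemma gau_le {c : ℝ} (hc : 1 ≤ c) {θ θ' ρ0 ρ1 ρ2 ρ3 R0 R1 R2 R3 : ℝ} {s s' : Fin 2 → ℝ}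
    (h0 : 0 < ρ0) (h1 : 0 < ρ1) (h2 : 0 < ρ2) (h3 : 0 < ρ3)
    (h : θ' = θ ∧ ρ1 ≤ R1 ∧ ρ2 ≤ R2 ∨ (ρ1 ≤ R1 ∧ ρ1 ≤ R2) ∧ ρ2 ≤ R1 ∧ ρ2 ≤ R2) (h33 : ρ3 ≤ R3) (h00 : ρ0 ≤ R0)
    (hw : |fw θ (fun i => s i - s' i)| * ρ3 ≤ c * R1) (hn : |fn θ (fun i => s i - s' i)| * ρ3 ≤ c * R2)
    (hw' : |fw θ' (fun i => s i - s' i)| * ρ1 ≤ c * R0) (hn' : |fn θ' (fun i => s i - s' i)| * ρ2 ≤ c * R0)
    (hq : ((s 0 - s' 0) ^ 2 + (s 1 - s' 1) ^ 2) * ρ3 ≤ c * R0) (z : E4) :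
    gau θ R0 R1 R2 R3 s z ≤ (3 * c + 4) * gau θ' ρ0 ρ1 ρ2 ρ3 s' z := by
  have hR0 : 0 < R0 := by linarith
  have hR1 : 0 < R1 := by rcases h with ⟨-, h, -⟩ | ⟨⟨h, -⟩, -⟩ <;> linarith
  have hR2 : 0 < R2 := by rcases h with ⟨-, -, h⟩ | ⟨⟨-, h⟩, -⟩ <;> linarith
  have hR3 : 0 < R3 := by linarith
  -- the time part
  have et : |z 2| / R3 ≤ |z 2| / ρ3 := by gcongr
  have ew : |fw θ (dv s z)| / R1 ≤ |fw θ (dv s' z)| / R1 + c * (|z 2| / ρ3) := by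
    have : |fw θ (dv s z)| ≤ |fw θ (dv s' z)| + |fw θ (fun i => s i - s' i)| * |z 2| := by
      rw [fw_dv θ s s' z, ← abs_mul]; exact abs_sub _ _
    calc |fw θ (dv s z)| / R1 ≤ (|fw θ (dv s' z)| + |fw θ (fun i => s i - s' i)| * |z 2|) / R1 := by gcongr
      _ = |fw θ (dv s' z)| / R1 + (|fw θ (fun i => s i - s' i)| * ρ3) * (|z 2| / ρ3) / R1 := by
          field_simp
      _ ≤ |fw θ (dv s' z)| / R1 + (c * R1) * (|z 2| / ρ3) / R1 := by gcongr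
      _ = _ := by field_simp
  have en : |fn θ (dv s z)| / R2 ≤ |fn θ (dv s' z)| / R2 + c * (|z 2| / ρ3) := by
    have : |fn θ (dv s z)| ≤ |fn θ (dv s' z)| + |fn θ (fun i => s i - s' i)| * |z 2| := by
      rw [fn_dv θ s s' z, ← abs_mul]; exact abs_sub _ _
    calc |fn θ (dv s z)| / R2 ≤ (|fn θ (dv s' z)| + |fn θ (fun i => s i - s' i)| * |z 2|) / R2 := by gcongr
      _ = |fn θ (dv s' z)| / R2 + (|fn θ (fun i => s i - s' i)| * ρ3) * (|z 2| / ρ3) / R2 := by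
          field_simp
      _ ≤ |fn θ (dv s' z)| / R2 + (c * R2) * (|z 2| / ρ3) / R2 := by gcongr
      _ = _ := by field_simp
  -- the null part
  have eu : |nl s z| / R0 ≤ |nl s' z| / ρ0 + c * (|fw θ' (dv s' z)| / ρ1 + |fn θ' (dv s' z)| / ρ2) + c * (|z 2| / ρ3) := by
    have hq0 : 0 ≤ (s 0 - s' 0) ^ 2 + (s 1 - s' 1) ^ 2 := by positivity
    have a1 : |nl s z| ≤ |nl s' z| + (|fw θ' (fun i => s i - s' i)| * |fw θ' (dv s' z)| +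
        |fn θ' (fun i => s i - s' i)| * |fn θ' (dv s' z)|) + ((s 0 - s' 0) ^ 2 + (s 1 - s' 1) ^ 2) * |z 2| := by
      rw [nl_sub θ' s s' z]
      calc _ ≤ |nl s' z - (fw θ' (fun i => s i - s' i) * fw θ' (dv s' z) + fn θ' (fun i => s i - s' i) * fn θ' (dv s' z))| +
            |((s 0 - s' 0) ^ 2 + (s 1 - s' 1) ^ 2) / 2 * z 2| := abs_add_le _ _
        _ ≤ (|nl s' z| + |fw θ' (fun i => s i - s' i) * fw θ' (dv s' z) + fn θ' (fun i => s i - s' i) * fn θ' (dv s' z)|) +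
            |((s 0 - s' 0) ^ 2 + (s 1 - s' 1) ^ 2) / 2 * z 2| := by gcongr; exact abs_sub _ _
        _ ≤ _ := by
            have b1 : |fw θ' (fun i => s i - s' i) * fw θ' (dv s' z) + fn θ' (fun i => s i - s' i) * fn θ' (dv s' z)| ≤
                |fw θ' (fun i => s i - s' i)| * |fw θ' (dv s' z)| + |fn θ' (fun i => s i - s' i)| * |fn θ' (dv s' z)| := by
              rw [← abs_mul, ← abs_mul]; exact abs_add_le _ _
            have b2 : |((s 0 - s' 0) ^ 2 + (s 1 - s' 1) ^ 2) / 2 * z 2| ≤ ((s 0 - s' 0) ^ 2 + (s 1 - s' 1) ^ 2) * |z 2| := by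
              rw [abs_mul, abs_of_nonneg (by positivity)]
              have := abs_nonneg (z 2)
              nlinarith
            linarith
    have b0 : |nl s' z| / R0 ≤ |nl s' z| / ρ0 := by gcongr
    have b1 : |fw θ' (fun i => s i - s' i)| * |fw θ' (dv s' z)| / R0 ≤ c * (|fw θ' (dv s' z)| / ρ1) := by
      calc |fw θ' (fun i => s i - s' i)| * |fw θ' (dv s' z)| / R0 =
            (|fw θ' (fun i => s i - s' i)| * ρ1) * (|fw θ' (dv s' z)| / ρ1) / R0 := by field_simp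
        _ ≤ (c * R0) * (|fw θ' (dv s' z)| / ρ1) / R0 := by gcongr
        _ = _ := by field_simp
    have b2 : |fn θ' (fun i => s i - s' i)| * |fn θ' (dv s' z)| / R0 ≤ c * (|fn θ' (dv s' z)| / ρ2) := by
      calc |fn θ' (fun i => s i - s' i)| * |fn θ' (dv s' z)| / R0 =
            (|fn θ' (fun i => s i - s' i)| * ρ2) * (|fn θ' (dv s' z)| / ρ2) / R0 := by field_simp
        _ ≤ (c * R0) * (|fn θ' (dv s' z)| / ρ2) / R0 := by gcongr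
        _ = _ := by field_simp
    have b3 : ((s 0 - s' 0) ^ 2 + (s 1 - s' 1) ^ 2) * |z 2| / R0 ≤ c * (|z 2| / ρ3) := by
      calc ((s 0 - s' 0) ^ 2 + (s 1 - s' 1) ^ 2) * |z 2| / R0 =
            (((s 0 - s' 0) ^ 2 + (s 1 - s' 1) ^ 2) * ρ3) * (|z 2| / ρ3) / R0 := by field_simp
        _ ≤ (c * R0) * (|z 2| / ρ3) / R0 := by gcongr
        _ = _ := by field_simp
    calc |nl s z| / R0 ≤ (|nl s' z| + (|fw θ' (fun i => s i - s' i)| * |fw θ' (dv s' z)| +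
          |fn θ' (fun i => s i - s' i)| * |fn θ' (dv s' z)|) + ((s 0 - s' 0) ^ 2 + (s 1 - s' 1) ^ 2) * |z 2|) / R0 := by gcongr
      _ = |nl s' z| / R0 + (|fw θ' (fun i => s i - s' i)| * |fw θ' (dv s' z)| / R0 +
          |fn θ' (fun i => s i - s' i)| * |fn θ' (dv s' z)| / R0) + ((s 0 - s' 0) ^ 2 + (s 1 - s' 1) ^ 2) * |z 2| / R0 := by
          simp only [add_div]
      _ ≤ _ := by linarith
  have p0 : 0 ≤ |nl s' z| / ρ0 := by positivity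
  have p3 : 0 ≤ |z 2| / ρ3 := by positivity
  have p1 : 0 ≤ |fw θ' (dv s' z)| / ρ1 := by positivity
  have p2 : 0 ≤ |fn θ' (dv s' z)| / ρ2 := by positivity
  have main : |fw θ (dv s' z)| / R1 + |fn θ (dv s' z)| / R2 ≤ 4 * (|fw θ' (dv s' z)| / ρ1 + |fn θ' (dv s' z)| / ρ2) := by
    rcases h with ⟨rfl, a1, a2⟩ | ⟨⟨a1, a2⟩, a3, a4⟩
    · have b1 : |fw θ' (dv s' z)| / R1 ≤ |fw θ' (dv s' z)| / ρ1 := by gcongr
      have b2 : |fn θ' (dv s' z)| / R2 ≤ |fn θ' (dv s' z)| / ρ2 := by gcongr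
      linarith
    · have c1 : |fw θ' (dv s' z)| / R1 ≤ |fw θ' (dv s' z)| / ρ1 := by gcongr
      have c2 : |fn θ' (dv s' z)| / R1 ≤ |fn θ' (dv s' z)| / ρ2 := by gcongr
      have c3 : |fw θ' (dv s' z)| / R2 ≤ |fw θ' (dv s' z)| / ρ1 := by gcongr
      have c4 : |fn θ' (dv s' z)| / R2 ≤ |fn θ' (dv s' z)| / ρ2 := by gcongr
      have b1 : |fw θ (dv s' z)| / R1 ≤ 2 * (|fw θ' (dv s' z)| / R1 + |fn θ' (dv s' z)| / R1) := by
        rw [← add_div, ← mul_div_assoc]; gcongr; exact fw_le_frame _ _ _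
      have b2 : |fn θ (dv s' z)| / R2 ≤ 2 * (|fw θ' (dv s' z)| / R2 + |fn θ' (dv s' z)| / R2) := by
        rw [← add_div, ← mul_div_assoc]; gcongr; exact fn_le_frame _ _ _
      linarith
  have hg : gau θ R0 R1 R2 R3 s z ≤ |nl s' z| / ρ0 + (c + 4) * (|fw θ' (dv s' z)| / ρ1 + |fn θ' (dv s' z)| / ρ2) +
      (3 * c + 1) * (|z 2| / ρ3) := by
    unfold gau; linarith
  calc gau θ R0 R1 R2 R3 s z ≤ |nl s' z| / ρ0 + (c + 4) * (|fw θ' (dv s' z)| / ρ1 + |fn θ' (dv s' z)| / ρ2) +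
      (3 * c + 1) * (|z 2| / ρ3) := hg
    _ ≤ (3 * c + 4) * (|nl s' z| / ρ0) + (3 * c + 4) * (|fw θ' (dv s' z)| / ρ1 + |fn θ' (dv s' z)| / ρ2) +
        (3 * c + 4) * (|z 2| / ρ3) := by
        have q0 : |nl s' z| / ρ0 ≤ (3 * c + 4) * (|nl s' z| / ρ0) := by nlinarith
        gcongr
        · linarith
        · linarith
    _ = (3 * c + 4) * gau θ' ρ0 ρ1 ρ2 ρ3 s' z := by unfold gau; ring

theorem stWG : StWG := by
  intro c hc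
  refine ⟨3 * c + 4, by linarith, ?_⟩
  intro θ θ' ρ0 ρ1 ρ2 ρ3 R0 R1 R2 R3 s s' h0 h1 h2 h3 h h33 h00 hw hn hw' hn' hq z
  exact gau_le hc h0 h1 h2 h3 h h33 h00 hw hn hw' hn' hq z

end Vale.Agent.P106.W840
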